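import Vale.Agent.P297.Gen.QuotDefs

/-!
Definitions: elliptic quotients of pencils of curves of genus two.
-/

open IntermediateField Polynomial

namespace Vale.Agent.P297.H230

open Vale.Agent.P297 Vale.Agent.P297.H839 Vale.Agent.P297.Gen

/-- The field `F` is purely transcendental over `ℂ` and contains `l`, the field `K` is a finite
extension of `F`, and the differential form `a(x) dx / y` of `K` over `ℂ(l)` is defined over `F`: it
is `dw / v` with `w = P(x) / Q(x)` and `v = y w'(x) / a(x)` in `F`, `w' ≠ 0`. -/
structure EllipticQuotient {K : Type} [Field K] [Algebra ℂ K] (l x y : K)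
    (F : IntermediateField ℂ K) (a : (IntermediateField.adjoin ℂ {l})[X]) : Prop where
  rational : IsRational F
  mem : l ∈ F
  fin : FiniteDimensional F K
  form : ∃ P Q : (IntermediateField.adjoin ℂ {l})[X], aeval x Q ≠ 0 ∧
    aeval x (derivative P * Q - P * derivative Q) ≠ 0 ∧ aeval x P / aeval x Q ∈ F ∧
    y * (aeval x (derivative P * Q - P * derivative Q) / aeval x Q ^ 2) / aeval x a ∈ F

end Vale.Agent.P297.H230
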