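import Vale.Agent.P297.Gen.Main
import Vale.Agent.P297.H839.Crit
import Vale.Agent.P297.H230.QuotDefs

open CategoryTheory AlgebraicGeometry IntermediateField Polynomial

namespace Vale.Agent.P297.H230

open Vale.Agent.P297 Vale.Agent.P297.H839 Vale.Agent.P297.Gen

/-- The points of a variety with purely transcendental function field. -/
theorem points_rational {K : Type} [Field K] [Algebra ℂ K]
    (h : IsRational (⊤ : IntermediateField ℂ K)) : PointsEquivalent K := by
  intro S _ f _ hS x y
  have hD : IsDouble K := ⟨⊤, 1, h, by simp, by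
    rw [eq_top_iff]
    refine le_trans ?_ (IntermediateField.adjoin.mono ℂ _ _ Set.subset_union_left)
    intro a _
    exact IntermediateField.subset_adjoin ℂ _ trivial⟩
  refine criterion_one (K := K) (N := K) hD 0 ?_ f hS x y
  apply AddSubgroup.subset_closure
  refine ⟨⊥, inferInstance, IsScalarTower.toAlgHom ℂ K K, ?_, ?_⟩
  · rw [IntermediateField.fixedField_bot]
    exact h
  · have h1 : (Finset.univ : Finset (⊥ : Subgroup (K ≃ₐ[ℂ] K))) = {1} := by
      ext a
      simp only [Finset.mem_univ, Finset.mem_singleton, true_iff]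
      exact Subsingleton.elim _ _
    rw [h1, Finset.sum_singleton]
    simp
    congr 1

theorem top_of_finrank_one {K : Type} [Field K] [Algebra ℂ K] (F : IntermediateField ℂ K)
    (h : Module.finrank F K = 1) : F = ⊤ := by
  exact IntermediateField.finrank_eq_one_iff_eq_top.1 h

theorem gen_of_form {K : Type} [Field K] [Algebra ℂ K] {l x y : K}
    {f : (IntermediateField.adjoin ℂ {l})[X]} (h : Pencil l x y f) {F : IntermediateField ℂ K}
    {a : (IntermediateField.adjoin ℂ {l})[X]} (ha : aeval x a ≠ 0)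
    (hq : EllipticQuotient l x y F a) : F ⊔ IntermediateField.adjoin ℂ {x} = ⊤ := by
  obtain ⟨P, Q, hQ, hJ, hw, hv⟩ := hq.form
  rw [eq_top_iff, ← h.top, IntermediateField.adjoin_le_iff]
  have hl : l ∈ F ⊔ IntermediateField.adjoin ℂ {x} :=
    (le_sup_left : F ≤ F ⊔ IntermediateField.adjoin ℂ {x}) hq.mem
  have hx : x ∈ F ⊔ IntermediateField.adjoin ℂ {x} :=
    (le_sup_right : _ ≤ F ⊔ IntermediateField.adjoin ℂ {x})
      (IntermediateField.mem_adjoin_simple_self ℂ x)
  have hL : IntermediateField.adjoin ℂ {l} ≤ F ⊔ IntermediateField.adjoin ℂ {x} := by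
    rw [IntermediateField.adjoin_le_iff]
    rintro _ rfl
    exact hl
  have key : ∀ R : (IntermediateField.adjoin ℂ {l})[X],
      aeval x R ∈ F ⊔ IntermediateField.adjoin ℂ {x} := by
    intro R
    rw [Polynomial.aeval_eq_sum_range]
    refine sum_mem fun i _ => ?_
    rw [Algebra.smul_def]
    exact mul_mem (hL (R.coeff i).2) (pow_mem hx i)
  have hy : y ∈ F ⊔ IntermediateField.adjoin ℂ {x} := by
    have h1 := mul_mem (mul_mem ((le_sup_left : F ≤ F ⊔ IntermediateField.adjoin ℂ {x}) hv)
      (key a)) (inv_mem (div_mem (key (derivative P * Q - P * derivative Q))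
        (pow_mem (key Q) 2)))
    have h2 : y * (aeval x (derivative P * Q - P * derivative Q) / aeval x Q ^ 2) / aeval x a *
        aeval x a * (aeval x (derivative P * Q - P * derivative Q) / aeval x Q ^ 2)⁻¹ = y := by
      field_simp
    rwa [h2] at h1
  rintro _ (rfl | rfl | rfl)
  · exact hl
  · exact hx
  · exact hy

/-- **Zero-cycles on pencils of curves of genus two with split Jacobian.** -/
theorem split_jacobian {K : Type} [Field K] [Algebra ℂ K] {l x y : K}
    {f : (IntermediateField.adjoin ℂ {l})[X]} (h : Pencil l x y f) (F₁ F₂ : IntermediateField ℂ K)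
    (h₁ : EllipticQuotient l x y F₁ 1) (h₂ : EllipticQuotient l x y F₂ X)
    (he : Even (Module.finrank F₁ K + Module.finrank F₂ K))
    (ht₁ : Algebra.trace F₁ K x = 0) (ht₂ : Algebra.trace F₂ K x⁻¹ = 0) :
    PointsEquivalent K := by
  have hx0 : x ≠ 0 := by
    have h1 := h.ind.ne_zero 1
    simpa using h1
  have g₁ := gen_of_form h (a := 1) (by rw [map_one]; exact one_ne_zero) h₁
  have g₂ := gen_of_form h (a := X) (by rw [aeval_X]; exact hx0) h₂
  have := h₁.fin
  have := h₂.fin
  have p₁ : 0 < Module.finrank F₁ K := Module.finrank_pos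
  have p₂ : 0 < Module.finrank F₂ K := Module.finrank_pos
  by_cases e₁ : Module.finrank F₁ K = 1
  · have h3 := h₁.rational
    rw [top_of_finrank_one F₁ e₁] at h3
    exact points_rational h3
  by_cases e₂ : Module.finrank F₂ K = 1
  · have h3 := h₂.rational
    rw [top_of_finrank_one F₂ e₂] at h3
    exact points_rational h3
  obtain ⟨P₁, Q₁, hQ₁, hJ₁, hw₁, hv₁⟩ := h₁.form
  obtain ⟨P₂, Q₂, hQ₂, hJ₂, hw₂, hv₂⟩ := h₂.form
  rw [map_one, div_one] at hv₁
  rw [aeval_X] at hv₂
  exact split_pencil h F₁ F₂ h₁.rational h₂.rational h₁.mem h₂.mem g₁ g₂ rfl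
    rfl (by omega) (by omega) he P₁ Q₁ P₂ Q₂ hQ₁ hQ₂ hJ₁ hJ₂ hw₁ hw₂ hv₁ hv₂ ht₁ ht₂

end Vale.Agent.P297.H230
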